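import Mathlib

/-!
P254/P248, block E3 (helper54): a symmetric 3-tensor whose slices commute is orthogonally
decomposable.
-/

open Matrix Module Module.End

namespace Vale.Agent.P254.H54

variable {n : ℕ}

/-- a pairwise commuting family of symmetric matrices has a common orthonormal eigenbasis -/
theorem exists_joint_basis {ι : Type} (M : ι → Matrix (Fin n) (Fin n) ℝ)
    (hs : ∀ a, (M a).IsSymm) (hc : ∀ a b, M a * M b = M b * M a) :
    ∃ (U : Matrix (Fin n) (Fin n) ℝ) (l : ι → Fin n → ℝ), U * Uᵀ = 1 ∧
      ∀ a i, M a *ᵥ U i = l a i • U i := by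
  classical
  let E := EuclideanSpace ℝ (Fin n)
  let S : ι → Module.End ℝ E := fun a => (M a).toEuclideanLin
  have hS : ∀ a, (S a).IsSymmetric := fun a => by
    rw [Matrix.isSymmetric_toEuclideanLin_iff]
    have := hs a
    unfold Matrix.IsHermitian
    rw [Matrix.conjTranspose_eq_transpose_of_trivial]
    exact this
  have hmul : ∀ a b, S a * S b = (M a * M b).toEuclideanLin := fun a b => by
    apply LinearMap.ext
    intro x
    show toEuclideanLin (M a) (toEuclideanLin (M b) x) = toEuclideanLin (M a * M b) x
    rw [toEuclideanLin_apply, toEuclideanLin_apply, toEuclideanLin_apply, Matrix.mulVec_mulVec]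
  have hC : Pairwise (Function.onFun Commute S) := by
    intro a b _
    show S a * S b = S b * S a
    rw [hmul, hmul, hc]
  have hI := LinearMap.IsSymmetric.directSum_isInternal_of_pairwise_commute hS hC
  have hO := LinearMap.IsSymmetric.orthogonalFamily_iInf_eigenspaces hS
  have hI' := DirectSum.isInternal_ne_bot_iff.mpr hI
  have hO' : OrthogonalFamily ℝ
      (fun γ : {γ : ι → ℝ // (⨅ j, eigenspace (S j) (γ j) : Submodule ℝ E) ≠ ⊥} =>
        (⨅ j, eigenspace (S j) (γ.1 j) : Submodule ℝ E))
      fun γ => (⨅ j, eigenspace (S j) (γ.1 j)).subtypeₗᵢ :=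
    hO.comp Subtype.val_injective
  have : Fintype {γ : ι → ℝ // (⨅ j, eigenspace (S j) (γ j) : Submodule ℝ E) ≠ ⊥} :=
    hO.independent.fintypeNeBotOfFiniteDimensional
  have hn : finrank ℝ E = n := finrank_euclideanSpace_fin
  let e := hI'.subordinateOrthonormalBasis hn hO'
  have he : ∀ i, e i ∈ (⨅ j, eigenspace (S j)
      ((hI'.subordinateOrthonormalBasisIndex hn i hO').1 j) : Submodule ℝ E) := fun i =>
    hI'.subordinateOrthonormalBasis_subordinate hn i hO'
  refine ⟨Matrix.of fun i j => e i j,
    fun a i => (hI'.subordinateOrthonormalBasisIndex hn i hO').1 a, ?_, fun a i => ?_⟩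
  · ext i j
    have h1 := e.inner_eq_ite i j
    rw [Matrix.mul_apply, Matrix.one_apply]
    rw [EuclideanSpace.inner_eq_star_dotProduct] at h1
    simp only [dotProduct, Pi.star_apply, star_trivial] at h1
    rw [← h1]
    refine Finset.sum_congr rfl fun k _ => ?_
    simp [Matrix.transpose_apply, mul_comm]
  · have h1 := (Submodule.mem_iInf _).mp (he i) a
    rw [mem_eigenspace_iff] at h1
    have h2 := congrArg (fun v : E => (v : Fin n → ℝ)) h1
    have h3 : (toEuclideanLin (M a) (e i) : Fin n → ℝ) = M a *ᵥ (e i : Fin n → ℝ) :=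
      ofLp_toEuclideanLin_apply _ _
    exact h3.symm.trans h2

/-- **Block E3.** A symmetric 3-tensor whose slices commute is orthogonally decomposable:
`T = ∑ t_i u_i ⊗ u_i ⊗ u_i` for the rows `u_i` of an orthogonal matrix. -/
theorem odeco_of_commute (T : Fin n → Fin n → Fin n → ℝ) (h1 : ∀ i j k, T i j k = T j i k)
    (h2 : ∀ i j k, T i j k = T i k j)
    (hc : ∀ a b, (Matrix.of (T a)) * (Matrix.of (T b)) = (Matrix.of (T b)) * (Matrix.of (T a))) :
    ∃ (U : Matrix (Fin n) (Fin n) ℝ) (t : Fin n → ℝ), U * Uᵀ = 1 ∧
      ∀ a b c, T a b c = ∑ i, t i * U i a * U i b * U i c := by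
  classical
  obtain ⟨U, l, hU, hl⟩ := exists_joint_basis (fun a => Matrix.of (T a))
    (fun a => by ext i j; simp [h2 a j i]) hc
  have hU' : Uᵀ * U = 1 := mul_eq_one_comm.mp hU
  -- the array of `T` in the frame `U`
  set L : Fin n → Fin n → ℝ := fun i k => ∑ a, U k a * l a i with hL
  have e1 : ∀ a i b, ∑ c, T a b c * U i c = l a i * U i b := by
    intro a i b
    have := congrFun (hl a i) b
    simpa [Matrix.mulVec, dotProduct] using this
  -- `T(u_k, u_j, u_i) = L i k δ_ij`
  have e2 : ∀ i j k, ∑ a, ∑ b, ∑ c, U k a * U j b * U i c * T a b c =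
      L i k * if i = j then 1 else 0 := by
    intro i j k
    have h3 : ∀ a, ∑ b, ∑ c, U k a * U j b * U i c * T a b c =
        U k a * l a i * ∑ b, U j b * U i b := by
      intro a
      rw [Finset.mul_sum]
      refine Finset.sum_congr rfl fun b _ => ?_
      have := e1 a i b
      calc ∑ c, U k a * U j b * U i c * T a b c = U k a * U j b * ∑ c, T a b c * U i c := by
            rw [Finset.mul_sum]
            exact Finset.sum_congr rfl fun c _ => by ring
        _ = _ := by rw [this]; ring
    simp_rw [h3]
    rw [← Finset.sum_mul]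
    congr 1
    have h4 := congrFun (congrFun hU i) j
    rw [Matrix.mul_apply, Matrix.one_apply] at h4
    rw [← h4]
    exact Finset.sum_congr rfl fun b _ => by rw [Matrix.transpose_apply, mul_comm]
  -- off-diagonal entries vanish
  have e3 : ∀ i k, i ≠ k → L i k = 0 := by
    intro i k hik
    have h3 := e2 i i k
    rw [if_pos rfl, mul_one] at h3
    have h4 := e2 i k i
    rw [if_neg hik, mul_zero] at h4
    rw [← h3, ← h4, Finset.sum_comm]
    refine Finset.sum_congr rfl fun a _ => Finset.sum_congr rfl fun b _ =>
      Finset.sum_congr rfl fun c _ => ?_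
    rw [h1 a b c]
    ring
  refine ⟨U, fun i => L i i, hU, fun a b c => ?_⟩
  -- expand `T` in the frame
  have e4 : ∀ a i, l a i = L i i * U i a := by
    intro a i
    have h3 : ∑ k, U k a * L i k = l a i := by
      have : ∀ k, U k a * L i k = ∑ a', U k a * U k a' * l a' i := by
        intro k
        rw [hL]
        simp only
        rw [Finset.mul_sum]
        exact Finset.sum_congr rfl fun _ _ => by ring
      simp_rw [this]
      rw [Finset.sum_comm]
      simp_rw [← Finset.sum_mul]
      have h5 : ∀ a', ∑ k, U k a * U k a' = if a = a' then 1 else 0 := by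
        intro a'
        have h6 := congrFun (congrFun hU' a) a'
        rw [Matrix.mul_apply, Matrix.one_apply] at h6
        rw [← h6]
        exact Finset.sum_congr rfl fun b _ => by rw [Matrix.transpose_apply]
      simp_rw [h5]
      simp
    rw [← h3, Finset.sum_eq_single i]
    · ring
    · intro k _ hk
      rw [e3 i k (Ne.symm hk), mul_zero]
    · simp
  have e5 : T a b c = ∑ i, l a i * U i b * U i c := by
    have h3 : ∀ i, l a i * U i b * U i c = ∑ c', T a b c' * (U i c' * U i c) := by
      intro i
      rw [← e1 a i b, Finset.sum_mul]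
      exact Finset.sum_congr rfl fun _ _ => by ring
    simp_rw [h3]
    rw [Finset.sum_comm]
    simp_rw [← Finset.mul_sum]
    have h5 : ∀ c', ∑ k, U k c' * U k c = if c' = c then 1 else 0 := by
      intro c'
      have h6 := congrFun (congrFun hU' c') c
      rw [Matrix.mul_apply, Matrix.one_apply] at h6
      rw [← h6]
      exact Finset.sum_congr rfl fun b _ => by rw [Matrix.transpose_apply]
    simp_rw [h5]
    simp
  rw [e5]
  exact Finset.sum_congr rfl fun i _ => by rw [e4 a i]

end Vale.Agent.P254.H54
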