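import Mathlib

/-!
P254/P248, block E4 (helper54): the one dimensional rigidity.  A log-concave probability density on
`ℝ` with mean `0` and variance `1` has third moment `≤ 2`, with equality only for the exponential
density `exp (-(x+1))` on `[-1, ∞)`.
-/

open MeasureTheory Set Filter Topology

namespace Vale.Agent.P254.H54

/-- the extremal density -/
noncomputable def expD (x : ℝ) : ℝ := (Ici (-1 : ℝ)).indicator (fun x => Real.exp (-(x + 1))) x

lemma expD_of_ge {x : ℝ} (h : -1 ≤ x) : expD x = Real.exp (-(x + 1)) :=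
  indicator_of_mem (mem_Ici.mpr h) _

lemma expD_of_lt {x : ℝ} (h : x < -1) : expD x = 0 :=
  indicator_of_notMem (by simpa using h) _

lemma expD_nonneg (x : ℝ) : 0 ≤ expD x :=
  indicator_nonneg (fun _ _ => (Real.exp_pos _).le) x

/-- moments of the exponential density, centred at `-1` -/
lemma integrable_pow_expD (k : ℕ) : Integrable (fun x : ℝ => (x + 1) ^ k * expD x) := by
  have h1 : IntegrableOn (fun x : ℝ => Real.exp (-x) * x ^ ((k : ℝ) + 1 - 1)) (Ioi 0) :=
    Real.GammaIntegral_convergent (by positivity)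
  have h2 : IntegrableOn (fun x : ℝ => x ^ k * Real.exp (-x)) (Ioi 0) := by
    refine h1.congr_fun (fun x hx => ?_) measurableSet_Ioi
    simp only [add_sub_cancel_right, Real.rpow_natCast]
    ring
  have h3 : Integrable (fun x : ℝ => (Ioi (0 : ℝ)).indicator (fun x => x ^ k * Real.exp (-x)) x) :=
    (integrable_indicator_iff measurableSet_Ioi).mpr h2
  have h4 := h3.comp_add_right (1 : ℝ)
  refine h4.congr ?_
  have h5 : ∀ᵐ x : ℝ, x ≠ -1 := by
    simp [ae_iff, measure_singleton]
  filter_upwards [h5] with x hx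
  by_cases h : x < -1
  · rw [expD_of_lt h, indicator_of_notMem (by simp; linarith)]
    ring
  · have h' : -1 ≤ x := not_lt.mp h
    have h6 : -1 < x := lt_of_le_of_ne h' (Ne.symm hx)
    rw [expD_of_ge h', indicator_of_mem (by simp; linarith)]

lemma integral_pow_expD (k : ℕ) : ∫ x : ℝ, (x + 1) ^ k * expD x = k.factorial := by
  have h1 : ∫ x : ℝ in Ioi 0, Real.exp (-x) * x ^ ((k : ℝ) + 1 - 1) = Real.Gamma (k + 1) :=
    (Real.Gamma_eq_integral (by positivity)).symm
  rw [Real.Gamma_nat_eq_factorial] at h1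
  rw [← h1]
  have h2 : ∫ x : ℝ in Ioi 0, Real.exp (-x) * x ^ ((k : ℝ) + 1 - 1) =
      ∫ x : ℝ in Ioi 0, x ^ k * Real.exp (-x) := by
    refine setIntegral_congr_fun measurableSet_Ioi (fun x hx => ?_)
    simp only [add_sub_cancel_right, Real.rpow_natCast]
    ring
  rw [h2, ← integral_indicator measurableSet_Ioi,
    ← integral_add_right_eq_self
      (fun x : ℝ => (Ioi (0 : ℝ)).indicator (fun x => x ^ k * Real.exp (-x)) x) 1]
  refine integral_congr_ae ?_
  have h5 : ∀ᵐ x : ℝ, x ≠ -1 := by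
    simp [ae_iff, measure_singleton]
  filter_upwards [h5] with x hx
  by_cases h : x < -1
  · rw [expD_of_lt h, indicator_of_notMem (by simp; linarith)]
    ring
  · have h' : -1 ≤ x := not_lt.mp h
    have h6 : -1 < x := lt_of_le_of_ne h' (Ne.symm hx)
    rw [expD_of_ge h', indicator_of_mem (by simp; linarith)]

section

variable {f : ℝ → ℝ}

/-- `f` is nonnegative and log-concave on the line -/
def LC (f : ℝ → ℝ) : Prop :=
  (∀ x, 0 ≤ f x) ∧ ∀ x y, ∀ t ∈ Icc (0 : ℝ) 1, f x ^ (1 - t) * f y ^ t ≤ f ((1 - t) * x + t * y)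

/-- the set above the exponential density is an interval -/
lemma ordConn (h : LC f) : OrdConnected {x : ℝ | -1 ≤ x ∧ expD x < f x} := by
  refine ⟨fun x hx z hz y hy => ?_⟩
  obtain ⟨hx1, hx2⟩ := hx
  obtain ⟨hz1, hz2⟩ := hz
  have hy1 : -1 ≤ y := hx1.trans hy.1
  refine ⟨hy1, ?_⟩
  rcases hy.1.eq_or_lt with e | hxy
  · rw [← e]; exact hx2
  rcases hy.2.eq_or_lt with e | hyz
  · rw [e]; exact hz2
  have hxz : 0 < z - x := by linarith
  set t : ℝ := (y - x) / (z - x) with ht
  have ht0 : 0 < t := div_pos (by linarith) hxz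
  have ht1 : t < 1 := by rw [ht, div_lt_one hxz]; linarith
  have hyt : (1 - t) * x + t * z = y := by
    have : t * (z - x) = y - x := div_mul_cancel₀ _ hxz.ne'
    linarith
  have h1 := h.2 x z t ⟨ht0.le, ht1.le⟩
  rw [hyt] at h1
  refine lt_of_lt_of_le ?_ h1
  rw [expD_of_ge hx1] at hx2
  rw [expD_of_ge hz1] at hz2
  rw [expD_of_ge hy1]
  have h2 : Real.exp (-(y + 1)) = Real.exp (-(x + 1)) ^ (1 - t) * Real.exp (-(z + 1)) ^ t := by
    rw [← Real.exp_mul, ← Real.exp_mul, ← Real.exp_add, ← hyt]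
    congr 1
    ring
  rw [h2]
  exact mul_lt_mul'' (Real.rpow_lt_rpow (Real.exp_pos _).le hx2 (by linarith))
    (Real.rpow_lt_rpow (Real.exp_pos _).le hz2 ht0) (by positivity) (by positivity)

/-- sign of `(f - g) q` -/
lemma exists_poly (h : LC f) : (∃ a b : ℝ, ∀ x, (f x - expD x) * ((x + 1) * (x - a) * (x - b)) ≤ 0) ∨
    (∃ a : ℝ, ∀ x, 0 ≤ (f x - expD x) * ((x + 1) * (x - a))) := by
  set I : Set ℝ := {x : ℝ | -1 ≤ x ∧ expD x < f x} with hI
  have hoc : OrdConnected I := ordConn h
  have hout : ∀ x, -1 ≤ x → x ∉ I → f x - expD x ≤ 0 := by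
    intro x hx hxI
    by_contra hc
    exact hxI ⟨hx, by linarith⟩
  have hin : ∀ x, x ∈ I → 0 ≤ f x - expD x := fun x hx => by linarith [hx.2]
  have hlow : ∀ x, x < -1 → 0 ≤ f x - expD x := fun x hx => by
    rw [expD_of_lt hx]; linarith [h.1 x]
  rcases I.eq_empty_or_nonempty with he | hne
  · left
    refine ⟨0, 0, fun x => ?_⟩
    by_cases hx : x < -1
    · have h1 := hlow x hx
      have h2 : (x + 1) * (x - 0) * (x - 0) ≤ 0 := by
        have : (x + 1) * (x - 0) * (x - 0) = (x + 1) * x ^ 2 := by ring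
        rw [this]
        exact mul_nonpos_of_nonpos_of_nonneg (by linarith) (sq_nonneg x)
      exact mul_nonpos_of_nonneg_of_nonpos h1 h2
    · have hx' : -1 ≤ x := not_lt.mp hx
      have h1 := hout x hx' (by rw [he]; simp)
      have h2 : 0 ≤ (x + 1) * (x - 0) * (x - 0) := by
        have : (x + 1) * (x - 0) * (x - 0) = (x + 1) * x ^ 2 := by ring
        rw [this]
        exact mul_nonneg (by linarith) (sq_nonneg x)
      exact mul_nonpos_of_nonpos_of_nonneg h1 h2
  · have hbb : BddBelow I := ⟨-1, fun x hx => hx.1⟩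
    set a := sInf I with ha
    have ha1 : -1 ≤ a := le_csInf hne fun x hx => hx.1
    by_cases hba : BddAbove I
    · left
      set b := sSup I with hb
      have hab : a ≤ b := by
        obtain ⟨x, hx⟩ := hne
        exact (csInf_le hbb hx).trans (le_csSup hba hx)
      refine ⟨a, b, fun x => ?_⟩
      by_cases hx : x < -1
      · have h1 := hlow x hx
        refine mul_nonpos_of_nonneg_of_nonpos h1 ?_
        rw [mul_assoc]
        exact mul_nonpos_of_nonpos_of_nonneg (by linarith)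
          (mul_nonneg_of_nonpos_of_nonpos (by linarith) (by linarith))
      · have hx' : -1 ≤ x := not_lt.mp hx
        rcases lt_trichotomy x a with hxa | hxa | hxa
        · have h1 := hout x hx' (fun hxI => absurd (csInf_le hbb hxI) (not_le.mpr hxa))
          refine mul_nonpos_of_nonpos_of_nonneg h1 ?_
          rw [mul_assoc]
          exact mul_nonneg (by linarith)
            (mul_nonneg_of_nonpos_of_nonpos (by linarith) (by linarith))
        · rw [hxa]; simp
        · rcases lt_trichotomy x b with hxb | hxb | hxb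
          · have hxI : x ∈ I := by
              obtain ⟨y, hy, hyx⟩ := exists_lt_of_csInf_lt hne hxa
              obtain ⟨z, hz, hxz⟩ := exists_lt_of_lt_csSup hne hxb
              exact hoc.out hy hz ⟨hyx.le, hxz.le⟩
            refine mul_nonpos_of_nonneg_of_nonpos (hin x hxI) ?_
            exact mul_nonpos_of_nonneg_of_nonpos (mul_nonneg (by linarith) (by linarith))
              (by linarith)
          · rw [hxb]; simp
          · have h1 := hout x hx' (fun hxI => absurd (le_csSup hba hxI) (not_le.mpr hxb))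
            refine mul_nonpos_of_nonpos_of_nonneg h1 ?_
            exact mul_nonneg (mul_nonneg (by linarith) (by linarith)) (by linarith)
    · right
      refine ⟨a, fun x => ?_⟩
      by_cases hx : x < -1
      · exact mul_nonneg (hlow x hx) (mul_nonneg_of_nonpos_of_nonpos (by linarith) (by linarith))
      · have hx' : -1 ≤ x := not_lt.mp hx
        rcases lt_trichotomy x a with hxa | hxa | hxa
        · have h1 := hout x hx' (fun hxI => absurd (csInf_le hbb hxI) (not_le.mpr hxa))
          exact mul_nonneg_of_nonpos_of_nonpos h1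
            (mul_nonpos_of_nonneg_of_nonpos (by linarith) (by linarith))
        · rw [hxa]; simp
        · have hxI : x ∈ I := by
            obtain ⟨y, hy, hyx⟩ := exists_lt_of_csInf_lt hne hxa
            rw [bddAbove_def] at hba
            push Not at hba
            obtain ⟨z, hz, hxz⟩ := hba x
            exact hoc.out hy hz ⟨hyx.le, hxz.le⟩
          exact mul_nonneg (hin x hxI) (mul_nonneg (by linarith) (by linarith))

lemma integral_lin4 {a0 a1 a2 a3 : ℝ → ℝ} (i0 : Integrable a0) (i1 : Integrable a1)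
    (i2 : Integrable a2) (i3 : Integrable a3) (c0 c1 c2 c3 : ℝ) :
    Integrable (fun x => c0 * a0 x + c1 * a1 x + c2 * a2 x + c3 * a3 x) ∧
    ∫ x, (c0 * a0 x + c1 * a1 x + c2 * a2 x + c3 * a3 x) =
      c0 * (∫ x, a0 x) + c1 * (∫ x, a1 x) + c2 * (∫ x, a2 x) + c3 * (∫ x, a3 x) := by
  have j0 : Integrable (fun x => c0 * a0 x) := i0.const_mul c0
  have j1 : Integrable (fun x => c1 * a1 x) := i1.const_mul c1
  have j2 : Integrable (fun x => c2 * a2 x) := i2.const_mul c2
  have j3 : Integrable (fun x => c3 * a3 x) := i3.const_mul c3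
  have k1 : Integrable (fun x => c0 * a0 x + c1 * a1 x) := j0.add j1
  have k2 : Integrable (fun x => c0 * a0 x + c1 * a1 x + c2 * a2 x) := k1.add j2
  refine ⟨k2.add j3, ?_⟩
  rw [integral_add k2 j3, integral_add k1 j2, integral_add j0 j1, integral_const_mul,
    integral_const_mul, integral_const_mul, integral_const_mul]

/-- a moment integral against a polynomial of degree three -/
lemma integral_cubic {f : ℝ → ℝ} (hi : ∀ k ≤ 3, Integrable fun x : ℝ => x ^ k * f x)
    (c0 c1 c2 c3 : ℝ) :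
    Integrable (fun x => f x * (c0 + c1 * x + c2 * x ^ 2 + c3 * x ^ 3)) ∧
    ∫ x, f x * (c0 + c1 * x + c2 * x ^ 2 + c3 * x ^ 3) =
      c0 * (∫ x, x ^ 0 * f x) + c1 * (∫ x, x ^ 1 * f x) + c2 * (∫ x, x ^ 2 * f x)
        + c3 * (∫ x, x ^ 3 * f x) := by
  have i0 := hi 0 (by norm_num)
  have i1 := hi 1 (by norm_num)
  have i2 := hi 2 (by norm_num)
  have i3 := hi 3 (by norm_num)
  have e : (fun x => f x * (c0 + c1 * x + c2 * x ^ 2 + c3 * x ^ 3)) = fun x =>
      c0 * (x ^ 0 * f x) + c1 * (x ^ 1 * f x) + c2 * (x ^ 2 * f x) + c3 * (x ^ 3 * f x) := by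
    funext x; ring
  rw [e]
  exact integral_lin4 i0 i1 i2 i3 c0 c1 c2 c3

lemma expD_moments : (∀ k ≤ 3, Integrable fun x : ℝ => x ^ k * expD x) ∧
    (∫ x : ℝ, x ^ 0 * expD x = 1) ∧ (∫ x : ℝ, x ^ 1 * expD x = 0) ∧
    (∫ x : ℝ, x ^ 2 * expD x = 1) ∧ (∫ x : ℝ, x ^ 3 * expD x = 2) := by
  have I := integrable_pow_expD
  have J := integral_pow_expD
  have L := fun c0 c1 c2 c3 => integral_lin4 (I 0) (I 1) (I 2) (I 3) c0 c1 c2 c3
  rw [J 0, J 1, J 2, J 3] at L
  have e0 : (fun x : ℝ => x ^ 0 * expD x) = fun x => 1 * ((x + 1) ^ 0 * expD x)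
      + 0 * ((x + 1) ^ 1 * expD x) + 0 * ((x + 1) ^ 2 * expD x) + 0 * ((x + 1) ^ 3 * expD x) := by
    funext x; ring
  have e1 : (fun x : ℝ => x ^ 1 * expD x) = fun x => (-1) * ((x + 1) ^ 0 * expD x)
      + 1 * ((x + 1) ^ 1 * expD x) + 0 * ((x + 1) ^ 2 * expD x) + 0 * ((x + 1) ^ 3 * expD x) := by
    funext x; ring
  have e2 : (fun x : ℝ => x ^ 2 * expD x) = fun x => 1 * ((x + 1) ^ 0 * expD x)
      + (-2) * ((x + 1) ^ 1 * expD x) + 1 * ((x + 1) ^ 2 * expD x)
      + 0 * ((x + 1) ^ 3 * expD x) := by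
    funext x; ring
  have e3 : (fun x : ℝ => x ^ 3 * expD x) = fun x => (-1) * ((x + 1) ^ 0 * expD x)
      + 3 * ((x + 1) ^ 1 * expD x) + (-3) * ((x + 1) ^ 2 * expD x)
      + 1 * ((x + 1) ^ 3 * expD x) := by
    funext x; ring
  refine ⟨?_, ?_, ?_, ?_, ?_⟩
  · intro k hk
    interval_cases k
    · rw [e0]; exact (L _ _ _ _).1
    · rw [e1]; exact (L _ _ _ _).1
    · rw [e2]; exact (L _ _ _ _).1
    · rw [e3]; exact (L _ _ _ _).1
  · rw [e0, (L _ _ _ _).2]; norm_num [Nat.factorial]
  · rw [e1, (L _ _ _ _).2]; norm_num [Nat.factorial]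
  · rw [e2, (L _ _ _ _).2]; norm_num [Nat.factorial]
  · rw [e3, (L _ _ _ _).2]; norm_num [Nat.factorial]

lemma ae_eq_of_mul_eq_zero {g q : ℝ → ℝ} (s : Set ℝ) (hs : s.Finite)
    (hq : ∀ x, q x = 0 → x ∈ s) (h : ∀ᵐ x : ℝ, (f x - g x) * q x = 0) : f =ᵐ[volume] g := by
  have h1 : ∀ᵐ x : ℝ, x ∉ s := by
    rw [ae_iff]
    simpa using hs.measure_zero volume
  filter_upwards [h, h1] with x hx hxs
  rcases mul_eq_zero.mp hx with h2 | h2
  · linarith
  · exact absurd (hq x h2) hxs

/-- **One dimensional rigidity.** -/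
theorem third_moment (h : LC f) (hi : ∀ k ≤ 3, Integrable fun x : ℝ => x ^ k * f x)
    (m0 : ∫ x : ℝ, x ^ 0 * f x = 1) (m1 : ∫ x : ℝ, x ^ 1 * f x = 0)
    (m2 : ∫ x : ℝ, x ^ 2 * f x = 1) :
    (∫ x : ℝ, x ^ 3 * f x ≤ 2) ∧ (∫ x : ℝ, x ^ 3 * f x = 2 → f =ᵐ[volume] expD) := by
  obtain ⟨gi, g0, g1, g2, g3⟩ := expD_moments
  rcases exists_poly h with ⟨a, b, hab⟩ | ⟨a, ha⟩
  · -- cubic case
    have e : ∀ x : ℝ, (x + 1) * (x - a) * (x - b) =
        a * b + (a * b - a - b) * x + (1 - a - b) * x ^ 2 + 1 * x ^ 3 := fun x => by ring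
    obtain ⟨if1, if2⟩ := integral_cubic hi (a * b) (a * b - a - b) (1 - a - b) 1
    obtain ⟨ig1, ig2⟩ := integral_cubic gi (a * b) (a * b - a - b) (1 - a - b) 1
    have e2 : (fun x => (f x - expD x) * ((x + 1) * (x - a) * (x - b))) = fun x =>
        f x * (a * b + (a * b - a - b) * x + (1 - a - b) * x ^ 2 + 1 * x ^ 3) -
        expD x * (a * b + (a * b - a - b) * x + (1 - a - b) * x ^ 2 + 1 * x ^ 3) := by
      funext x; rw [e]; ring
    have hI : Integrable (fun x => (f x - expD x) * ((x + 1) * (x - a) * (x - b))) := by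
      rw [e2]; exact if1.sub ig1
    have hJ : ∫ x, (f x - expD x) * ((x + 1) * (x - a) * (x - b)) = (∫ x : ℝ, x ^ 3 * f x) - 2 := by
      rw [e2, integral_sub if1 ig1, if2, ig2, m0, m1, m2, g0, g1, g2, g3]
      ring
    have hle : ∫ x, (f x - expD x) * ((x + 1) * (x - a) * (x - b)) ≤ 0 :=
      integral_nonpos hab
    refine ⟨by linarith, fun heq => ?_⟩
    have hz : ∫ x, -((f x - expD x) * ((x + 1) * (x - a) * (x - b))) = 0 := by
      rw [integral_neg, hJ, heq]; ring
    have hz2 := (integral_eq_zero_iff_of_nonneg (fun x => neg_nonneg.mpr (hab x)) hI.neg).mp hz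
    refine ae_eq_of_mul_eq_zero (q := fun x => (x + 1) * (x - a) * (x - b)) {-1, a, b}
      (by simp) (fun x hx => ?_) ?_
    · simp only [mul_eq_zero] at hx
      rcases hx with (hx | hx) | hx
      · left; linarith
      · right; left; linarith
      · right; right; rw [mem_singleton_iff]; linarith
    · filter_upwards [hz2] with x hx
      simpa using hx
  · have e : ∀ x : ℝ, (x + 1) * (x - a) = -a + (1 - a) * x + 1 * x ^ 2 + 0 * x ^ 3 :=
      fun x => by ring
    obtain ⟨if1, if2⟩ := integral_cubic hi (-a) (1 - a) 1 0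
    obtain ⟨ig1, ig2⟩ := integral_cubic gi (-a) (1 - a) 1 0
    have e2 : (fun x => (f x - expD x) * ((x + 1) * (x - a))) = fun x =>
        f x * (-a + (1 - a) * x + 1 * x ^ 2 + 0 * x ^ 3) -
        expD x * (-a + (1 - a) * x + 1 * x ^ 2 + 0 * x ^ 3) := by
      funext x; rw [e]; ring
    have hI : Integrable (fun x => (f x - expD x) * ((x + 1) * (x - a))) := by
      rw [e2]; exact if1.sub ig1
    have hJ : ∫ x, (f x - expD x) * ((x + 1) * (x - a)) = 0 := by
      rw [e2, integral_sub if1 ig1, if2, ig2, m0, m1, m2, g0, g1, g2]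
      ring
    have hz2 := (integral_eq_zero_iff_of_nonneg (fun x => ha x) hI).mp hJ
    have hfg : f =ᵐ[volume] expD := by
      refine ae_eq_of_mul_eq_zero (q := fun x => (x + 1) * (x - a)) {-1, a}
        (by simp) (fun x hx => ?_) ?_
      · simp only [mul_eq_zero] at hx
        rcases hx with hx | hx
        · left; linarith
        · right; rw [mem_singleton_iff]; linarith
      · filter_upwards [hz2] with x hx
        simpa using hx
    have h3 : ∫ x : ℝ, x ^ 3 * f x = 2 := by
      rw [← g3]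
      refine integral_congr_ae ?_
      filter_upwards [hfg] with x hx
      rw [hx]
    exact ⟨h3.le, fun _ => hfg⟩

end

end Vale.Agent.P254.H54
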